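import Vale.Agent.N019.Fin

/-!
# P019: reconstruction of function fields from commuting pairs, separably closed constants

The definitions used in the statement are in `Vale/Agent/N019/Defs.lean`.
-/

namespace Vale.Agent.Results.P019.A0CommutingPairs

open Vale.Agent.N019

/-- Let `ℓ` be a prime, `K/k` and `L/l` finitely generated field extensions of characteristics
different from `ℓ`, and `K'`, `L'` perfect closures of `K`, `L` (perfect fields, purely
inseparable over `K`, `L`).

(1) Let the constants be separably closed and `trdeg (K/k) ≥ 2`. A linear isomorphism `Θ` matches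
the commuting pairs of linear forms if and only if it is compatible, and then it is `c • α_*`
with `α` matching the perfect closures of the constants.
(2) The bound on the transcendence degree cannot be lowered: for `K = k(t)`, `L = l(s)` with
`k`, `l` algebraically closed of the same cardinality, every isomorphism `V_K → V_L` is
compatible, and some isomorphism is not of the form `c • α_*`. -/
theorem result (ℓ : ℕ) [Fact ℓ.Prime] {k K l L K' L' : Type*}
    [Field k] [Field K] [Field l] [Field L] [Field K'] [Field L']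
    [Algebra k K] [Algebra l L] [Algebra K K'] [Algebra L L']
    [PerfectField K'] [PerfectField L'] [IsPurelyInseparable K K'] [IsPurelyInseparable L L']
    (hK : (⊤ : IntermediateField k K).FG) (hL : (⊤ : IntermediateField l L).FG)
    (hℓk : (ℓ : k) ≠ 0) (hℓl : (ℓ : l) ≠ 0) :
    -- (1)
    (IsSepClosed k → IsSepClosed l → 2 ≤ Algebra.trdeg k K →
      ∀ Θ : V ℓ K ≃ₗ[ZMod ℓ] V ℓ L,
        (MatchesPairs (cls ℓ) (cls ℓ) Θ ↔ Compatible (cls ℓ) (cls ℓ) Θ) ∧
        (MatchesPairs (cls ℓ) (cls ℓ) Θ → ∃ (c : (ZMod ℓ)ˣ) (α : K' ≃+* L'),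
          α '' {x : K' | ∃ (m : ℕ) (a : k),
              x ^ ringExpChar K' ^ m = algebraMap K K' (algebraMap k K a)} =
            {y : L' | ∃ (m : ℕ) (b : l),
              y ^ ringExpChar L' ^ m = algebraMap L L' (algebraMap l L b)} ∧
          Induced (cls ℓ) (cls ℓ) (cls ℓ) Θ c α)) ∧
    -- (2)
    (IsAlgClosed k → IsAlgClosed l → Nonempty (k ≃ l) → ∀ (t : K) (s : L),
      Transcendental k t → IntermediateField.adjoin k {t} = ⊤ →
      Transcendental l s → IntermediateField.adjoin l {s} = ⊤ →
        (∀ Θ : V ℓ K ≃ₗ[ZMod ℓ] V ℓ L, Compatible (cls ℓ) (cls ℓ) Θ) ∧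
        ∃ Θ : V ℓ K ≃ₗ[ZMod ℓ] V ℓ L,
          ∀ (c : (ZMod ℓ)ˣ) (α : K' ≃+* L'), ¬ Induced (cls ℓ) (cls ℓ) (cls ℓ) Θ c α) := by
  refine ⟨?_, ?_⟩
  · intro _ _ hKtr Θ
    exact P019P.N019.final_two hK hL hKtr hℓk hℓl Θ
  · intro _ _ ⟨e⟩ t s ht ht' hs hs'
    exact P019P.N019.final_three hℓk hℓl e ht ht' hs hs'

end Vale.Agent.Results.P019.A0CommutingPairs
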